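import Mathlib

set_option autoImplicit false

namespace Vale.Agent.P275.R2.H912

open Filter Topology Asymptotics

namespace H321

lemma deriv_fac {n : ℕ} (hn : 1 ≤ n) :
    HasDerivAt (fun y : ℂ => 1 - y ^ n) (if n = 1 then -1 else 0) 0 := by
  have h := (hasDerivAt_pow n (0 : ℂ)).const_sub 1
  have e : -((n : ℂ) * 0 ^ (n - 1)) = if n = 1 then -1 else 0 := by
    split_ifs with h1
    · subst h1
      simp
    · rw [zero_pow (by omega), mul_zero, neg_zero]
  rw [e] at h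
  exact h

lemma deriv_prod {d : ℕ} (hd : 1 ≤ d) (k : ℕ) :
    HasDerivAt (fun y : ℂ => ∏ i ∈ Finset.range k, (1 - y ^ (d * (i + 1))))
      (if d = 1 ∧ 1 ≤ k then -1 else 0) 0 ∧
    ∏ i ∈ Finset.range k, (1 - (0 : ℂ) ^ (d * (i + 1))) = 1 := by
  have hv : ∀ i : ℕ, (1 - (0 : ℂ) ^ (d * (i + 1))) = 1 := by
    intro i
    rw [zero_pow (Nat.mul_ne_zero (by omega) (Nat.succ_ne_zero i)), sub_zero]
  refine ⟨?_, Finset.prod_eq_one fun i _ => hv i⟩
  induction k with
  | zero => simpa using hasDerivAt_const (0 : ℂ) (1 : ℂ)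
  | succ k ih =>
    have h1 := ih.mul (deriv_fac (n := d * (k + 1)) (Nat.mul_pos (by omega) (by omega)))
    have e1 : (∏ i ∈ Finset.range k, (1 - (0 : ℂ) ^ (d * (i + 1)))) = 1 :=
      Finset.prod_eq_one fun i _ => hv i
    have e2 : ((if d = 1 ∧ 1 ≤ k then -1 else 0 : ℂ) * (1 - (0 : ℂ) ^ (d * (k + 1))) +
        (∏ i ∈ Finset.range k, (1 - (0 : ℂ) ^ (d * (i + 1)))) *
          (if d * (k + 1) = 1 then -1 else 0)) = if d = 1 ∧ 1 ≤ k + 1 then -1 else 0 := by
      rw [e1, hv k, mul_one, one_mul]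
      by_cases h2 : d = 1
      · subst h2
        by_cases h3 : 1 ≤ k
        · rw [if_pos ⟨rfl, h3⟩, if_neg (by omega), if_pos ⟨rfl, by omega⟩, add_zero]
        · have : k = 0 := by omega
          subst this
          simp
      · have h3 : d * (k + 1) ≠ 1 := by
          intro h
          exact h2 (Nat.eq_one_of_mul_eq_one_right h)
        rw [if_neg (fun h => h2 h.1), if_neg h3, if_neg (fun h => h2 h.1), add_zero]
    rw [e2] at h1
    refine h1.congr_of_eventuallyEq (Filter.Eventually.of_forall fun y => ?_)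
    simp only [Finset.prod_range_succ, Pi.mul_apply]

lemma sum_id (k : ℕ) : ∑ i ∈ Finset.range k, (i + 1) = k * (k + 1) / 2 := by
  have h : (∑ i ∈ Finset.range k, (i + 1)) * 2 = k * (k + 1) := by
    induction k with
    | zero => simp
    | succ k ih => rw [Finset.sum_range_succ, add_mul, ih]; ring
  omega

end H321

open H321 in
/-- ROW C (elementary limit). -/
theorem rowC {k d : ℕ} (hk : 1 ≤ k) (hd : 1 ≤ d) (N : ℕ) :
    Tendsto (fun x : ℝ => (x : ℂ) * ((∏ i ∈ Finset.range k, (((x : ℂ) ^ d) ^ (i + 1) - 1)) ^ N /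
      (x : ℂ) ^ (d * N * (k * (k + 1) / 2)) - 1)) atTop
      (𝓝 (if d = 1 then -(N : ℂ) else 0)) := by
  obtain ⟨h1, h0⟩ := deriv_prod hd k
  have h2 := h1.pow N
  have e : ((N : ℂ) * (∏ i ∈ Finset.range k, (1 - (0 : ℂ) ^ (d * (i + 1)))) ^ (N - 1) *
      (if d = 1 ∧ 1 ≤ k then -1 else 0)) = if d = 1 then -(N : ℂ) else 0 := by
    rw [h0, one_pow, mul_one]
    by_cases h3 : d = 1
    · rw [if_pos ⟨h3, hk⟩, if_pos h3]; ring
    · rw [if_neg (fun h => h3 h.1), if_neg h3, mul_zero]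
  rw [e] at h2
  have h3 := hasDerivAt_iff_tendsto_slope.1 h2
  have h4 : Tendsto (fun x : ℝ => ((x : ℂ))⁻¹) atTop (𝓝[≠] 0) := by
    rw [tendsto_nhdsWithin_iff]
    constructor
    · have h5 : Tendsto (fun x : ℝ => ((x⁻¹ : ℝ) : ℂ)) atTop (𝓝 ((0 : ℝ) : ℂ)) :=
        (Complex.continuous_ofReal.tendsto 0).comp tendsto_inv_atTop_zero
      simpa using h5
    · filter_upwards [eventually_gt_atTop 0] with x hx
      have : (x : ℂ) ≠ 0 := by exact_mod_cast hx.ne'
      simpa using this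
  refine (h3.comp h4).congr' ?_
  filter_upwards [eventually_gt_atTop 0] with x hx
  have hx0 : (x : ℂ) ≠ 0 := by exact_mod_cast hx.ne'
  have h6 : ∏ i ∈ Finset.range k, (((x : ℂ) ^ d) ^ (i + 1) - 1) =
      (x : ℂ) ^ (d * (k * (k + 1) / 2)) *
        ∏ i ∈ Finset.range k, (1 - ((x : ℂ))⁻¹ ^ (d * (i + 1))) := by
    rw [← sum_id, Finset.mul_sum, ← Finset.prod_pow_eq_pow_sum, ← Finset.prod_mul_distrib]
    refine Finset.prod_congr rfl fun i _ => ?_
    rw [mul_sub, mul_one, ← mul_pow, mul_inv_cancel₀ hx0, one_pow, pow_mul]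
  have h7 : (∏ i ∈ Finset.range k, (((x : ℂ) ^ d) ^ (i + 1) - 1)) ^ N /
      (x : ℂ) ^ (d * N * (k * (k + 1) / 2)) =
      (∏ i ∈ Finset.range k, (1 - ((x : ℂ))⁻¹ ^ (d * (i + 1)))) ^ N := by
    rw [h6, mul_pow, ← pow_mul]
    have : d * (k * (k + 1) / 2) * N = d * N * (k * (k + 1) / 2) := by ring
    rw [this, mul_div_cancel_left₀ _ (pow_ne_zero _ hx0)]
  rw [h7]
  simp only [Function.comp_apply, slope, vsub_eq_sub, sub_zero, smul_eq_mul, inv_inv,
    Pi.pow_apply]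
  rw [h0, one_pow]

end Vale.Agent.P275.R2.H912
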